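import Vale.Agent.P290Z.Nk.Cover.Top
import Vale.Agent.P290.H470.Germ

/-!
# P290Z Nk, COVER: the two-form on the double cover
-/

open scoped Manifold ContDiff Topology
open Set Filter Metric

noncomputable section

namespace Vale.Agent.P290Z.Nk

open Vale.Agent.P290
open Vale.Agent.P290.All (Etale dir)

namespace PreCov

theorem hartogs2 {u : C2 → ℂ} (hu : ∀ᶠ z in 𝓝[≠] (0 : C2), DifferentiableAt ℂ u z) :
    ∃ W : C2 → ℂ, DifferentiableAt ℂ W 0 ∧ W =ᶠ[𝓝[≠] 0] u := by
  have t : ∀ {E F : Type} [NormedAddCommGroup E] [NormedSpace ℂ E] [NormedAddCommGroup F]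
      [NormedSpace ℂ F] (L : E ≃L[ℂ] F), Tendsto L (𝓝[≠] 0) (𝓝[≠] 0) := fun L =>
    tendsto_nhdsWithin_iff.2 ⟨(by simpa using L.continuous.tendsto 0 : Tendsto L _ _).mono_left
      nhdsWithin_le_nhds, eventually_mem_nhdsWithin.mono fun z hz => by simpa using hz⟩
  obtain ⟨W, h1, h2⟩ := H470.hartogs (u := u ∘ H445.φ.symm) (p := 0)
    (((t H445.φ.symm).eventually hu).mono fun z hz => hz.comp z H445.φ.symm.differentiableAt)
  refine ⟨W ∘ H445.φ, DifferentiableAt.comp _ (by rw [map_zero]; exact h1.differentiableAt)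
    H445.φ.differentiableAt, ((t H445.φ).eventually h2).mono fun z hz => ?_⟩
  rw [Function.comp, hz, Function.comp, H445.φ.symm_apply_apply]

theorem exists_val {u : C2 → ℂ} (hu : ∀ᶠ z in 𝓝[≠] (0 : C2), DifferentiableAt ℂ u z ∧ u z ≠ 0) :
    ∃ W : C2 → ℂ, W 0 ≠ 0 ∧ DifferentiableAt ℂ W 0 ∧ W =ᶠ[𝓝[≠] 0] u := by
  obtain ⟨W, h1, h2⟩ := hartogs2 (hu.mono fun _ h => h.1)
  obtain ⟨V, h3, h4⟩ := hartogs2 (u := fun z => (u z)⁻¹) (hu.mono fun _ h => h.1.inv h.2)
  refine ⟨W, left_ne_zero_of_mul_eq_one (tendsto_nhds_unique (l := 𝓝[≠] 0)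
    ((h1.continuousAt.mul h3.continuousAt).tendsto.mono_left nhdsWithin_le_nhds)
    (tendsto_const_nhds.congr' ?_)), h1, h2⟩
  filter_upwards [hu, h2, h4] with z a1 a2 a3
  rw [Pi.mul_apply, a2, a3, mul_inv_cancel₀ a1.2]

theorem jac_congr {V : VS} {f f' : C2 → V.X} {v : C2} (h : f =ᶠ[𝓝 v] f') :
    jac V f v = jac V f' v := by
  rw [jac, jac, ← h.self_of_nhds, EventuallyEq.fderiv_eq (h.mono fun z hz => congrArg _ hz)]

theorem trans_diff {X : Type} [TopologicalSpace X] [ChartedSpace C2 X] [IsManifold 𝓘(ℂ, C2) ω X]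
    {e t : OpenPartialHomeomorph X C2} (he : e ∈ atlas C2 X) (ht : t ∈ atlas C2 X) {v : C2}
    (hv : v ∈ e.target) (h : e.symm v ∈ t.source) :
    DifferentiableAt ℂ (fun z => t (e.symm z)) v :=
  have : IsManifold 𝓘(ℂ, C2) 1 X := IsManifold.of_le (n := ω) le_top
  ((mdifferentiableAt_atlas (I := 𝓘(ℂ, C2)) ht h).comp v
    (mdifferentiableAt_atlas_symm he hv)).differentiableAt

variable {Y : W.K3} {n : ℕ} {K : Nik Y n} {A : Nbhd K} (P : PreCov A)

theorem etale_p {e : OpenPartialHomeomorph P.X C2} (he : e ∈ atlas C2 P.X) {v : C2}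
    (hv : v ∈ e.target) (h : e.symm v ∉ range P.q) : Etale (fun z => P.p (e.symm z)) v := by
  have hc := e.continuousAt_symm hv
  have h1 : (fun z => chartAt C2 (P.p (e.symm v)) (P.p (e.symm z))) =ᶠ[𝓝 v]
      fun z => chartAt C2 (e.symm v) (e.symm z) :=
    (hc.eventually (P.chart_p _ h)).mono fun _ h => h.symm
  have h2 := trans_diff he (chart_mem_atlas C2 (e.symm v)) hv (mem_chart_source _ _)
  refine ⟨(P.p_cont _ h).comp hc, h2.congr_of_eventuallyEq h1, Inv.det_ne_iff.2 ?_⟩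
  have h3 := trans_diff (chart_mem_atlas C2 (e.symm v)) he (mem_chart_target _ _)
    (by rw [(chartAt C2 _).left_inv (mem_chart_source _ _)]; exact e.map_target hv)
  have h4 : (fun z => e ((chartAt C2 (e.symm v)).symm z)) ∘
      (fun z => chartAt C2 (e.symm v) (e.symm z)) =ᶠ[𝓝 v] id := by
    filter_upwards [hc.eventually (chart_source_mem_nhds C2 _), e.open_target.mem_nhds hv]
      with z a1 a2
    rw [Function.comp, (chartAt C2 _).left_inv a1, e.right_inv a2, id]
  have h5 := (fderiv_comp v h3 h2).symm.trans h4.fderiv_eq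
  rw [h1.fderiv_eq]
  rw [fderiv_id] at h5
  exact Function.LeftInverse.injective fun x => DFunLike.congr_fun h5 x

theorem exists_W (A : Nbhd K) (i : Fin n) : ∃ W : C2 → ℂ, W 0 ≠ 0 ∧ DifferentiableAt ℂ W 0 ∧
    W =ᶠ[𝓝[≠] 0] jac (toVS Y) (A.ν i 1) := by
  refine exists_val ?_
  filter_upwards [self_mem_nhdsWithin,
    nhdsWithin_le_nhds (ball_mem_nhds (0 : C2) (by norm_num : (0 : ℝ) < 10))] with v a1 a2
  have h1 : ∀ᶠ z in 𝓝 v, Etale (A.ν i 1) z := by
    filter_upwards [isOpen_ball.mem_nhds a2, isOpen_compl_singleton.mem_nhds a1] with z b1 b2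
    exact (A.std i).etale_one (by simpa [show (10 : ℝ) ^ 2 = 100 by norm_num] using sd_one b1 b2)
  exact ⟨jac_diff (V := toVS Y) h1, jac_ne_zero (V := toVS Y) h1.self_of_nhds⟩

/-- the coefficient of the two-form in a chart -/
def vol (e : OpenPartialHomeomorph P.X C2) (v : C2) : ℂ :=
  open Classical in
  if e.symm v ∈ range P.q then Function.extend P.q (fun i => (exists_W A i).choose 0) 0 (e.symm v)
  else jac (toVS Y) (fun z => P.p (e.symm z)) v

theorem vol_off {e : OpenPartialHomeomorph P.X C2} {v : C2} (h : e.symm v ∉ range P.q) :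
    P.vol e v = jac (toVS Y) (fun z => P.p (e.symm z)) v := if_neg h

theorem vol_q {e : OpenPartialHomeomorph P.X C2} {v : C2} {i : Fin n} (h : P.q i = e.symm v) :
    P.vol e v = (exists_W A i).choose 0 := by
  rw [vol, if_pos ⟨i, h⟩, ← h, P.q_inj.extend_apply]

theorem vol_diff {e : OpenPartialHomeomorph P.X C2} (he : e ∈ atlas C2 P.X) {v : C2}
    (hv : v ∈ e.target) : DifferentiableAt ℂ (P.vol e) v := by
  by_cases h : e.symm v ∈ range P.q
  · obtain ⟨i, hi⟩ := h
    obtain rfl := P.atl e he i (hi ▸ e.map_target hv)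
    obtain rfl : v = 0 :=
      ((chartAt C2 _).right_inv hv).symm.trans ((congrArg _ hi.symm).trans (P.chart_q i))
    obtain ⟨-, h1, h2⟩ := (exists_W A i).choose_spec
    refine h1.congr_of_eventuallyEq (eventuallyEq_nhds_of_eventuallyEq_nhdsNE ?_ (P.vol_q hi))
    filter_upwards [h2, self_mem_nhdsWithin,
      nhdsWithin_le_nhds (ball_mem_nhds (0 : C2) (by norm_num : (0 : ℝ) < 10))] with v a0 a1 a2
    rw [a0, P.vol_off (P.off_q i v a2 a1)]
    refine jac_congr ?_
    filter_upwards [isOpen_ball.mem_nhds a2, isOpen_compl_singleton.mem_nhds a1] with z b1 b2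
    exact P.p_q i z b1 b2
  · have h1 := (e.continuousAt_symm hv).eventually (P.ev_off h)
    refine (jac_diff (V := toVS Y) (f := fun z => P.p (e.symm z)) ?_).congr_of_eventuallyEq
      (h1.mono fun z hz => P.vol_off hz)
    filter_upwards [h1, e.open_target.mem_nhds hv] with z a1 a2 using P.etale_p he a2 a1

theorem vol_ne {e : OpenPartialHomeomorph P.X C2} (he : e ∈ atlas C2 P.X) {v : C2}
    (hv : v ∈ e.target) : P.vol e v ≠ 0 := by
  by_cases h : e.symm v ∈ range P.q
  · rw [P.vol_q h.choose_spec]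
    exact (exists_W A _).choose_spec.1
  · rw [P.vol_off h]
    exact jac_ne_zero (V := toVS Y) (P.etale_p he hv h)

theorem vol_trans {e t : OpenPartialHomeomorph P.X C2} (he : e ∈ atlas C2 P.X)
    (ht : t ∈ atlas C2 P.X) {v : C2} (hv : v ∈ e.target) (hs : e.symm v ∈ t.source) :
    P.vol e v = P.vol t (t (e.symm v)) * (fderiv ℂ (fun z => t (e.symm z)) v).det := by
  by_cases h : e.symm v ∈ range P.q
  · obtain ⟨i, hi⟩ := h
    obtain rfl : e = t := (P.atl e he i (hi ▸ e.map_target hv)).trans (P.atl t ht i (hi ▸ hs)).symm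
    have h1 : (fun z => e (e.symm z)) =ᶠ[𝓝 v] id :=
      mem_of_superset (e.open_target.mem_nhds hv) fun z hz => e.right_inv hz
    rw [h1.fderiv_eq, e.right_inv hv, fderiv_id]
    simp [ContinuousLinearMap.det]
  · have h' : t.symm (t (e.symm v)) ∉ range P.q := by rwa [t.left_inv hs]
    rw [P.vol_off h, P.vol_off h', ← jac_comp (V := toVS Y) (φ := fun z => t (e.symm z))
      (P.etale_p ht (t.map_source hs) h') (trans_diff he ht hv hs)]
    refine jac_congr ?_
    filter_upwards [(e.continuousAt_symm hv).eventually (t.open_source.mem_nhds hs)] with z hz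
    rw [t.left_inv hz]

theorem vol_p {z : P.X} (hz : z ∉ range P.q) :
    P.vol (chartAt C2 z) (chartAt C2 z z) = W.H445.Om Y (P.p z) := by
  have h0 := (chartAt C2 z).left_inv (mem_chart_source C2 z)
  have h1 : (fun v => chartAt C2 (P.p z) (P.p ((chartAt C2 z).symm v))) =ᶠ[𝓝 (chartAt C2 z z)]
      id := by
    have h2 := (chartAt C2 z).continuousAt_symm (mem_chart_target C2 z)
    rw [ContinuousAt, h0] at h2
    filter_upwards [h2.eventually (P.chart_p z hz),
      (chartAt C2 z).open_target.mem_nhds (mem_chart_target C2 z)] with v a1 a2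
    rw [← a1, (chartAt C2 z).right_inv a2, id]
  rw [P.vol_off (h0.symm ▸ hz)]
  change W.H445.Om Y (P.p ((chartAt C2 z).symm _)) * (fderiv ℂ (fun v =>
    chartAt C2 (P.p ((chartAt C2 z).symm _)) (P.p ((chartAt C2 z).symm v))) _).det = _
  rw [h0, h1.fderiv_eq, fderiv_id]
  simp [ContinuousLinearMap.det]

include P in
theorem dcover (hn : 0 < n) : Nonempty (DCover A) :=
  ⟨{ P with
    Z := { X := P.X, t2 := P.t2, compact := P.compact, conn := P.conn hn, vol := P.vol
           holo := fun _ he => ⟨fun _ hv => (P.vol_diff he hv).differentiableWithinAt,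
             fun _ hv => ⟨P.vol_ne he hv, fun _ ht hs => P.vol_trans he ht hv hs⟩⟩ }
    j := ⟨⟨P.j, P.j, P.j_j, P.j_j⟩, P.j_cont, P.j_cont⟩
    om_p := fun _ hz => P.vol_p hz
    off_q := P.off_q
    j_q := P.j_q }⟩

end PreCov

end Vale.Agent.P290Z.Nk
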