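import Vale.Agent.P290Z.Nk.Cover.PA
import Vale.Agent.P290Z.Nk.Std
import Vale.Agent.P290Z.W.Defs
import Vale.Agent.P290.H470.Germ

/-!
# P290Z, COVER: the pull back of the two-form by an etale map; local inverses
-/

open scoped Manifold ContDiff Topology
open Set Filter Metric

noncomputable section

namespace Vale.Agent.P290Z.Nk.Cv

open Vale.Agent.P290
open Vale.Agent.P290.All (Etale)

theorem det_comp (A B : C2 →L[ℂ] C2) : (A.comp B).det = A.det * B.det := by
  simp only [ContinuousLinearMap.det, ContinuousLinearMap.toLinearMap_comp, LinearMap.det_comp]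

theorem det_id {F : C2 → C2} {v : C2} (h : ∀ᶠ u in 𝓝 v, F u = u) : (fderiv ℂ F v).det = 1 := by
  rw [((hasFDerivAt_id v).congr_of_eventuallyEq h).fderiv]
  exact LinearMap.det_id

theorem diff_det {F : C2 → C2} {v : C2} (h : ∀ᶠ u in 𝓝 v, DifferentiableAt ℂ F u) :
    DifferentiableAt ℂ (fun u => (fderiv ℂ F u).det) v := by
  have h1 := (analyticAt_ev h).fderiv.differentiableAt
  have h2 : ∀ a : C2, DifferentiableAt ℂ (fun u => fderiv ℂ F u a) v := fun a =>
    h1.clm_apply (differentiableAt_const a)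
  simp only [R2.H236.det_formula]
  exact ((h2 _).fst.mul (h2 _).snd).sub ((h2 _).fst.mul (h2 _).snd)

/-- removable singularities of functions without zeros -/
theorem hart {u : C2 → ℂ} (h : ∀ᶠ z in 𝓝[≠] (0 : C2), DifferentiableAt ℂ u z ∧ u z ≠ 0) :
    ∃ c ≠ 0, DifferentiableAt ℂ (Function.update u 0 c) 0 := by
  have t1 : Tendsto H445.φ.symm (𝓝[≠] 0) (𝓝[≠] (0 : C2)) :=
    tendsto_nhdsWithin_iff.2 ⟨by
      have := (H445.φ.symm.continuous.tendsto 0).mono_left (nhdsWithin_le_nhds (s := {0}ᶜ))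
      rwa [map_zero] at this,
      eventually_mem_nhdsWithin.mono fun z hz e => hz (H445.φ.symm.map_eq_zero_iff.1 e)⟩
  have t2 : Tendsto H445.φ (𝓝[≠] (0 : C2)) (𝓝[≠] 0) :=
    tendsto_nhdsWithin_iff.2 ⟨by
      have := (H445.φ.continuous.tendsto 0).mono_left (nhdsWithin_le_nhds (s := {0}ᶜ))
      rwa [map_zero] at this,
      eventually_mem_nhdsWithin.mono fun z hz e => hz (H445.φ.map_eq_zero_iff.1 e)⟩
  obtain ⟨w, hw, he⟩ := H470.hartogs (u := fun z => u (H445.φ.symm z)) (p := 0)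
    ((t1.eventually h).mono fun z hz => hz.1.comp z H445.φ.symm.differentiableAt)
  refine ⟨w 0, fun h0 => H470.not_isolated hw h0 ?_, ?_⟩
  · filter_upwards [he, t1.eventually h] with z a1 a2
    rw [a1]; exact a2.2
  · have h1 : DifferentiableAt ℂ (fun z => w (H445.φ z)) 0 :=
      DifferentiableAt.comp (0 : C2) (by rw [map_zero]; exact hw.differentiableAt)
        H445.φ.differentiableAt
    refine h1.congr_of_eventuallyEq ?_
    filter_upwards [eventually_nhdsWithin_iff.1 (t2.eventually he)] with z hz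
    by_cases h0 : z = 0
    · rw [h0, Function.update_self, map_zero]
    · rw [Function.update_of_ne h0, hz h0, H445.φ.symm_apply_apply]

section gen

variable {X : Type} [TopologicalSpace X] [ChartedSpace C2 X] [IsManifold 𝓘(ℂ, C2) ω X]

theorem diff_chart {P : C2 → X} {v : C2} (h : ∀ᶠ u in 𝓝 v, Etale P u) :
    ∀ᶠ u in 𝓝 v, P u ∈ (chartAt C2 (P v)).source ∧
      DifferentiableAt ℂ (fun z => chartAt C2 (P v) (P z)) u := by
  filter_upwards [h, h.self_of_nhds.1.eventually (chart_source_mem_nhds C2 _)] with u a1 a2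
  exact ⟨a2, Inv.md_chart (Inv.etale_md a1) a2⟩

theorem etale_symm {y : X} {v : C2} (hv : v ∈ (chartAt C2 y).target) :
    Etale (chartAt C2 y).symm v := by
  have h : ∀ᶠ u in 𝓝 v, chartAt C2 y ((chartAt C2 y).symm u) = u :=
    (chartAt C2 y).eventually_right_inverse hv
  have h1 := (hasFDerivAt_id (𝕜 := ℂ) v).congr_of_eventuallyEq h
  refine Inv.etale_of_chart ((chartAt C2 y).continuousAt_symm hv) ((chartAt C2 y).map_target hv)
    h1.differentiableAt ?_
  rw [h1.fderiv]
  exact fun _ _ e => e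

/-- the local inverse of an etale map -/
theorem loc_inv {P : C2 → X} {v : C2} (h : ∀ᶠ u in 𝓝 v, Etale P u) :
    ∃ σ : X → C2, σ (P v) = v ∧ Tendsto σ (𝓝 (P v)) (𝓝 v) ∧ (∀ᶠ y in 𝓝 (P v), P (σ y) = y) ∧
      ∀ (P' : C2 → X) (v' : C2), P' v' = P v → (∀ᶠ u in 𝓝 v', Etale P' u) →
        ∀ᶠ u in 𝓝 v', DifferentiableAt ℂ (fun z => σ (P' z)) u := by
  have hd := diff_chart h
  obtain ⟨τ, h1, h2, h3, h4⟩ := STD.ift (hd.mono fun _ a => a.2)
    (Inv.det_ne_iff.1 h.self_of_nhds.2.2)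
  have hc : ContinuousAt (chartAt C2 (P v)) (P v) :=
    (chartAt C2 (P v)).continuousAt (mem_chart_source _ _)
  refine ⟨fun y => τ (chartAt C2 (P v) y), h1.self_of_nhds, h4.comp hc, ?_, fun P' v' e h' => ?_⟩
  · filter_upwards [hc.eventually h2, (h4.comp hc).eventually hd, chart_source_mem_nhds C2 (P v)]
      with y a1 a2 a3
    exact (chartAt C2 (P v)).injOn a2.1 a3 a1
  · have h5 := diff_chart h'
    have h6 := h'.self_of_nhds.1
    rw [ContinuousAt, e] at h6
    rw [e] at h5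
    filter_upwards [h5, (hc.tendsto.comp h6).eventually h3] with u a1 a2
    exact DifferentiableAt.comp u a2 a1.2

end gen

variable (Y : W.K3)

/-- the coefficient of the pull back of the two-form -/
def Jc (P : C2 → Y.X) (v : C2) : ℂ :=
  W.H445.Om Y (P v) * (fderiv ℂ (fun u => chartAt C2 (P v) (P u)) v).det

variable {Y} {P P' : C2 → Y.X} {v : C2}

theorem Jc_ne (h : Etale P v) : Jc Y P v ≠ 0 := mul_ne_zero (W.H445.Om_ne_zero Y _) h.2.2

theorem Jc_congr (h : P =ᶠ[𝓝 v] P') : Jc Y P v = Jc Y P' v := by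
  have h1 : (fun u => chartAt C2 (P' v) (P u)) =ᶠ[𝓝 v] fun u => chartAt C2 (P' v) (P' u) :=
    h.mono fun u hu => by simp only [hu]
  rw [Jc, Jc, h.self_of_nhds, h1.fderiv_eq]

theorem Jc_comp {φ : C2 → C2} (h : Etale P (φ v)) (hφ : DifferentiableAt ℂ φ v) :
    Jc Y (fun u => P (φ u)) v = Jc Y P (φ v) * (fderiv ℂ φ v).det := by
  have h1 := (h.2.1.hasFDerivAt.comp v hφ.hasFDerivAt).fderiv
  rw [Jc, Jc, mul_assoc, ← det_comp, ← h1]
  rfl

theorem Jc_symm {y : Y.X} (hv : v ∈ (chartAt C2 y).target) :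
    Jc Y (chartAt C2 y).symm v = Y.vol (chartAt C2 y) v :=
  (((Y.holo _ (chart_mem_atlas C2 y)).2 v hv).2 _ (chart_mem_atlas C2 _)
    (mem_chart_source _ _)).symm

theorem Jc_diff (h : ∀ᶠ u in 𝓝 v, Etale P u) : DifferentiableAt ℂ (Jc Y P) v := by
  have hd := diff_chart h
  have h0 : chartAt C2 (P v) (P v) ∈ (chartAt C2 (P v)).target := mem_chart_target _ _
  have h1 : DifferentiableAt ℂ (Y.vol (chartAt C2 (P v))) (chartAt C2 (P v) (P v)) :=
    (Y.holo _ (chart_mem_atlas C2 _)).1.differentiableAt ((chart_target_mem_nhds C2 _))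
  refine ((DifferentiableAt.comp v h1 hd.self_of_nhds.2).mul
    (diff_det (hd.mono fun _ a => a.2))).congr_of_eventuallyEq ?_
  filter_upwards [hd.eventually_nhds] with u a
  have a1 := (chartAt C2 (P v)).map_source a.self_of_nhds.1
  have h2 := Jc_comp (Y := Y) (φ := fun z => chartAt C2 (P v) (P z)) (etale_symm a1)
    a.self_of_nhds.2
  rw [Jc_symm a1] at h2
  refine Eq.trans (Jc_congr (a.mono fun z hz => ?_)) h2
  exact ((chartAt C2 (P v)).left_inv hz.1).symm

end Vale.Agent.P290Z.Nk.Cv
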