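import Vale.Agent.P290Z.Nk.Cover.Jc
import Vale.Agent.P290Z.Nk.SpecB
import Vale.Agent.P290Z.Kum

/-!
# P290Z, COVER: local square roots of the section
-/

open scoped Manifold ContDiff Topology
open Set Filter Metric

noncomputable section

namespace Vale.Agent.P290Z.Nk.Cv

open Vale.Agent.P290 Vale.Agent.P267
open Vale.Agent.P290.All (Etale dir)
open Kum (cs ph)

section alg

variable {ι : Type}

theorem ex_ne {a : EuclideanSpace ℂ ι} (h : a ≠ 0) : ∃ j, a j ≠ 0 := by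
  by_contra hn
  push Not at hn
  exact h (PiLp.ext hn)

theorem sq_pm {a b : EuclideanSpace ℂ ι} (h : ∀ j k, a j * a k = b j * b k) : b = a ∨ b = -a := by
  by_cases h0 : a = 0
  · refine Or.inl (PiLp.ext fun j => ?_)
    have := h j j
    rw [h0] at this ⊢
    simpa using this.symm
  obtain ⟨j, hj⟩ := ex_ne h0
  rcases mul_self_eq_mul_self_iff.1 (h j j) with e | e
  · exact Or.inl (PiLp.ext fun k => mul_left_cancel₀ hj (by rw [h j k, e]))
  · refine Or.inr (PiLp.ext fun k => mul_left_cancel₀ hj ?_)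
    rw [PiLp.neg_apply]
    linear_combination h j k + b k * e

theorem lift_local [Fintype ι] {T : Type} [TopologicalSpace T] {a b : T → EuclideanSpace ℂ ι}
    {t : T} (ha : ContinuousAt a t) (hb : ContinuousAt b t) (e : a t = b t) (h0 : a t ≠ 0)
    (h : ∀ᶠ s in 𝓝 t, ∀ j k, a s j * a s k = b s j * b s k) : ∀ᶠ s in 𝓝 t, b s = a s := by
  have h1 : a t + b t ≠ 0 := by
    rw [← e, ← two_smul ℂ]
    exact smul_ne_zero two_ne_zero h0
  filter_upwards [h, (ha.add hb).eventually_ne h1] with s a1 a2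
  exact (sq_pm a1).resolve_right fun a3 => a2 (by simp [a3])

theorem cont_of_symm {X H T : Type} [TopologicalSpace X] [TopologicalSpace H] [TopologicalSpace T]
    {c : OpenPartialHomeomorph X H} {f : X → T} {x : X} (hx : x ∈ c.source)
    (h : ContinuousAt (fun w => f (c.symm w)) (c x)) : ContinuousAt f x :=
  (ContinuousAt.comp (f := c) h (c.continuousAt hx)).congr
    ((c.eventually_left_inverse hx).mono fun y hy => by simp only [Function.comp_apply, hy])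

theorem sd_smul {ε : ℝ} {h t : ℂ} {d : C2} (ht : t ≠ 0) : SD ε (h * t ^ 2) d ↔ SD ε h (t • d) := by
  simp only [SD, norm_smul, norm_mul, norm_pow, mul_pow, mul_assoc, ne_eq, smul_eq_zero, ht,
    false_or]

theorem sd_one {v : C2} (hv : v ∈ ball (0 : C2) 10) (h0 : v ≠ 0) : SD 100 1 v := by
  refine ⟨h0, ?_⟩
  rw [mem_ball_zero_iff] at hv
  rw [norm_one, one_mul]
  nlinarith [norm_nonneg v]

theorem dir_ne (b : Bool) (u : ℂ) : dir b u ≠ 0 := fun e => by
  have := Kum.cs_smul_dir b 1 u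
  rw [e, smul_zero] at this
  cases b <;> simp [cs] at this

theorem norm_cs (b : Bool) (v : C2) : ‖cs b v‖ ≤ ‖v‖ := by
  cases b
  · exact norm_snd_le v
  · exact norm_fst_le v

theorem norm_dir (b : Bool) {u : ℂ} (hu : ‖u‖ ≤ 1) : ‖dir b u‖ ≤ 1 := by
  cases b <;> simp [dir, hu]

end alg

variable {Y : W.K3} {n : ℕ} (K : Nik Y n)

/-- `w` is a square root of `S y` -/
def Sq (y : Y.X) (w : EuclideanSpace ℂ K.ι) : Prop := ∀ j k, w j * w k = K.S y j k

variable {K}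

theorem Sq.neg {y : Y.X} {w : EuclideanSpace ℂ K.ι} (h : Sq K y w) : Sq K y (-w) := fun j k => by
  rw [PiLp.neg_apply, PiLp.neg_apply, neg_mul_neg, h]

theorem Sq.pm {y : Y.X} {w w' : EuclideanSpace ℂ K.ι} (h : Sq K y w) (h' : Sq K y w') :
    w' = w ∨ w' = -w := sq_pm fun j k => (h j k).trans (h' j k).symm

theorem sq_zero {y : Y.X} (h : y ∈ K.br) : Sq K y 0 := fun j k => by
  obtain ⟨U, e, f, hU, -, -, h1⟩ := K.loc y
  rw [(h1 y hU).1, (h1 y hU).2.1.2 h]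
  simp

theorem Sq.zero_iff {y : Y.X} {w : EuclideanSpace ℂ K.ι} (h : Sq K y w) : w = 0 ↔ y ∈ K.br := by
  refine ⟨fun h0 => ?_, fun hy => by simpa using (sq_zero hy).pm h⟩
  obtain ⟨U, e, f, hU, he, -, h1⟩ := K.loc y
  obtain ⟨j, hj⟩ := ex_ne (he.ne y hU)
  have h2 := h j j
  rw [(h1 y hU).1, h0] at h2
  exact (h1 y hU).2.1.1 (by simpa [hj] using h2.symm)

/-- local square roots -/
theorem exists_sec {y : Y.X} (hy : y ∉ K.br) : ∃ s : Y.X → EuclideanSpace ℂ K.ι,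
    ∀ᶠ x in 𝓝 y, ContinuousAt s x ∧ Sq K x (s x) ∧ s x ≠ 0 := by
  obtain ⟨U, e, f, hU, he, hf, h1⟩ := K.loc y
  have c1 : ∀ x ∈ U, ContinuousAt e x := fun x hx =>
    cont_of_symm (mem_chart_source FL.C2 x) (he.reg _ (chart_mem_atlas _ x) _
      (mem_chart_target _ x) (by rwa [(chartAt FL.C2 x).left_inv (mem_chart_source _ _)])).continuousAt
  have c2 : ∀ x ∈ U, ContinuousAt f x := fun x hx => by
    have h2 := hf _ (chart_mem_atlas FL.C2 x)
    rw [FL.LB.loc0_zero] at h2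
    exact cont_of_symm (mem_chart_source FL.C2 x) (h2.differentiableAt
      (((chartAt FL.C2 x).isOpen_inter_preimage_symm he.isOpen).mem_nhds ⟨mem_chart_target _ x, by
        rwa [mem_preimage, (chartAt FL.C2 x).left_inv (mem_chart_source _ _)]⟩)).continuousAt
  have h0 : f y ≠ 0 := fun e => hy ((h1 y hU).2.1.1 e)
  have h2 : ∀ᶠ x in 𝓝 y, f x / f y ∈ Complex.slitPlane :=
    ((c2 y hU).div_const (f y)).eventually (Complex.isOpen_slitPlane.mem_nhds (by
      simp only [div_self h0, Complex.one_mem_slitPlane]))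
  refine ⟨fun x => (f y ^ (2⁻¹ : ℂ) * (f x / f y) ^ (2⁻¹ : ℂ)) • e x, ?_⟩
  filter_upwards [h2, he.isOpen.mem_nhds hU, (c2 y hU).eventually_ne h0] with x a1 a2 a3
  have h3 : Sq K x ((f y ^ (2⁻¹ : ℂ) * (f x / f y) ^ (2⁻¹ : ℂ)) • e x) := fun j k => by
    have e1 := Complex.cpow_ofNat_inv_pow (f y) 2
    have e2 := Complex.cpow_ofNat_inv_pow (f x / f y) 2
    have e3 : f x = (f y ^ (2⁻¹ : ℂ) * (f x / f y) ^ (2⁻¹ : ℂ)) ^ 2 := by
      rw [mul_pow, e1, e2, mul_div_cancel₀ _ h0]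
    rw [(h1 x a2).1, PiLp.smul_apply, PiLp.smul_apply, smul_eq_mul, smul_eq_mul]
    linear_combination -(e x j * e x k) * e3
  exact ⟨(continuousAt_const.mul (((c2 x a2).div_const _).cpow continuousAt_const a1)).smul
    (c1 x a2), h3, fun e => a3 ((h1 x a2).2.1.2 (h3.zero_iff.1 e))⟩

theorem Sq.sec {y : Y.X} {w : EuclideanSpace ℂ K.ι} (h : Sq K y w) (h0 : w ≠ 0) :
    ∃ s : Y.X → EuclideanSpace ℂ K.ι, s y = w ∧
      ∀ᶠ x in 𝓝 y, ContinuousAt s x ∧ Sq K x (s x) ∧ s x ≠ 0 := by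
  obtain ⟨s, hs⟩ := exists_sec (mt h.zero_iff.2 h0)
  rcases hs.self_of_nhds.2.1.pm h with e | e
  · exact ⟨s, e.symm, hs⟩
  · exact ⟨fun x => -s x, e.symm, hs.mono fun x a => ⟨a.1.neg, a.2.1.neg, neg_ne_zero.2 a.2.2⟩⟩

variable (K) in
/-- a regular point of a local lift -/
structure Rg (P : C2 → Y.X) (F : C2 → EuclideanSpace ℂ K.ι) (v : C2) : Prop where
  et : Etale P v
  cont : ContinuousAt F v
  sq : Sq K (P v) (F v)
  ne : F v ≠ 0

/-- two local lifts through one point differ by a holomorphic map -/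
theorem rg_trans {P P' : C2 → Y.X} {F F' : C2 → EuclideanSpace ℂ K.ι} {v v' : C2}
    (h : ∀ᶠ u in 𝓝 v, Rg K P F u) (h' : ∀ᶠ u in 𝓝 v', Rg K P' F' u) (e1 : P v = P' v')
    (e2 : F v = F' v') : ∃ φ : C2 → C2, φ v = v' ∧
      ∀ᶠ u in 𝓝 v, DifferentiableAt ℂ φ u ∧ P' (φ u) = P u ∧ F' (φ u) = F u := by
  obtain ⟨σ, h1, h2, h3, h4⟩ := loc_inv (h'.mono fun _ a => a.et)
  have h5 := h4 P v e1 (h.mono fun _ a => a.et)
  have h6 := h.self_of_nhds.et.1
  rw [ContinuousAt, e1] at h6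
  have h7 : σ (P v) = v' := by rw [e1, h1]
  refine ⟨fun u => σ (P u), h7, h5.and ((h6.eventually h3).and ?_)⟩
  refine lift_local h.self_of_nhds.cont (ContinuousAt.comp (f := fun u => σ (P u))
    (by rw [h7]; exact h'.self_of_nhds.cont) h5.self_of_nhds.continuousAt)
    (e2.trans (congrArg F' h7.symm)) h.self_of_nhds.ne ?_
  filter_upwards [h, (h2.comp h6).eventually h', h6.eventually h3] with u a1 a2 a3 j k
  exact (a1.sq j k).trans ((a2.sq j k).trans (congrArg (K.S · j k) a3)).symm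

/-! ### the standard neighbourhoods -/

variable (A : Nbhd K) (i : Fin n)

theorem nu_smul {t : ℂ} (ht : t ≠ 0) (d : C2) : A.ν i 1 (t • d) = A.ν i (t ^ 2) d := by
  rw [← (A.std i).hom 1 t d ht, one_mul]

theorem E_smul {t : ℂ} (ht : t ≠ 0) (d : C2) : A.E i 1 (t • d) = t • A.E i (t ^ 2) d := by
  rw [(A.lift i).hom 1 t d ht, one_mul]

theorem nu_neg (v : C2) : A.ν i 1 (-v) = A.ν i 1 v := by
  simpa using nu_smul A i (t := -1) (by simp) v

theorem E_neg (v : C2) : A.E i 1 (-v) = -A.E i 1 v := by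
  simpa using E_smul A i (t := -1) (by simp) v

theorem rg_nu {v : C2} (hv : v ∈ ball (0 : C2) 10) (h0 : v ≠ 0) :
    Rg K (A.ν i 1) (A.E i 1) v := by
  have h := sd_one hv h0
  refine ⟨?_, ContinuousAt.comp (f := fun u : C2 => ((1 : ℂ), u)) ((A.lift i).cont 1 v h)
    (by fun_prop), fun j k => by rw [(A.lift i).sq 1 v h, one_mul], (A.lift i).ne 1 v h⟩
  obtain ⟨b, hb, -⟩ := Kum.exists_cs h0
  have h1 : SD 100 (ph b v).1 (dir b (ph b v).2) := by
    have := (sd_smul (ε := 100) (h := 1) (d := dir b (ph b v).2) hb).2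
      (by rwa [Kum.smul_dir hb])
    rwa [one_mul] at this
  have h2 := Kum.ph_deriv hb
  refine STD.etale_congr (Inv.etale_comp ((A.std i).etale b _ h1) h2.1
    (Inv.det_ne_iff.1 fun e => by simp [e] at h2)) ?_
  filter_upwards [(Kum.continuous_cs b).continuousAt.eventually_ne hb] with u hu
  conv_lhs => rw [← Kum.smul_dir hu, nu_smul A i hu]
  rfl

theorem inj_nu {v v' : C2} (hv : v ∈ ball (0 : C2) 10) (h0 : v ≠ 0) (hv' : v' ∈ ball (0 : C2) 10)
    (h0' : v' ≠ 0) (e1 : A.ν i 1 v = A.ν i 1 v') (e2 : A.E i 1 v = A.E i 1 v') : v = v' := by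
  obtain ⟨t, -, rfl, h1⟩ := (A.std i).inj 1 v 1 v' (sd_one hv h0) (sd_one hv' h0') e1
  rw [one_mul] at h1
  rcases mul_self_eq_one_iff.1 ((sq t).symm.trans h1.symm) with rfl | rfl
  · rw [one_smul]
  · rw [neg_one_smul, E_neg, eq_neg_iff_add_eq_zero, ← two_smul ℂ] at e2
    exact absurd e2 (smul_ne_zero two_ne_zero (rg_nu A i hv h0).ne)

theorem tendsto_E : Tendsto (A.E i 1) (𝓝[≠] 0) (𝓝 0) := by
  have hK : IsCompact (closedBall (0 : ℂ) 1 ×ˢ (closedBall (0 : C2) 1 \ ball 0 1)) :=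
    (isCompact_closedBall _ _).prod ((isCompact_closedBall _ _).diff isOpen_ball)
  obtain ⟨M, hM⟩ := hK.exists_bound_of_continuousOn (f := fun v => A.E i v.1 v.2) fun v hv => by
    refine ((A.lift i).cont v.1 v.2 ⟨fun e => hv.2.2 (by simp [e]), ?_⟩).continuousWithinAt
    have a1 := mem_closedBall_zero_iff.1 hv.1
    have a2 := mem_closedBall_zero_iff.1 hv.2.1
    have a3 : ‖v.2‖ ^ 2 ≤ 1 := pow_le_one₀ (norm_nonneg _) a2
    nlinarith [norm_nonneg v.1, sq_nonneg ‖v.2‖]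
  refine squeeze_zero_norm' (a := fun v : C2 => ‖v‖ * M) ?_ ?_
  · filter_upwards [self_mem_nhdsWithin, mem_nhdsWithin_of_mem_nhds (ball_mem_nhds 0 one_pos)]
      with v h0 h1
    have a0 : (‖v‖ : ℂ) ≠ 0 := by simpa using h0
    have a1 : v = (‖v‖ : ℂ) • ((‖v‖ : ℂ)⁻¹ • v) := (smul_inv_smul₀ a0 v).symm
    have a2 : ‖(‖v‖ : ℂ)⁻¹ • v‖ = 1 := by
      rw [norm_smul, norm_inv, Complex.norm_real, norm_norm, inv_mul_cancel₀ (by simpa using h0)]
    conv_lhs => rw [a1, E_smul A i a0, norm_smul, Complex.norm_real, norm_norm]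
    refine mul_le_mul_of_nonneg_left (hM (_, _) ⟨?_, by simp [a2], by simp [a2]⟩) (norm_nonneg _)
    rw [mem_closedBall_zero_iff, norm_pow, Complex.norm_real, norm_norm]
    exact pow_le_one₀ (norm_nonneg _) (mem_ball_zero_iff.1 h1).le
  · simpa using ((continuous_norm.tendsto (0 : C2)).mul_const M).mono_left nhdsWithin_le_nhds

/-- points near the curve lie on the curve or come from small vectors -/
theorem near_curve {y : Y.X} (hy : y ∈ (K.C i).supp) {N : Set C2} (hN : N ∈ 𝓝 (0 : C2)) :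
    ∀ᶠ x in 𝓝 y, x ∈ (K.C i).supp ∨ ∃ v ∈ N, v ≠ 0 ∧ A.ν i 1 v = x := by
  obtain ⟨b, u, rfl⟩ := hy
  obtain ⟨r, hr, hrN⟩ := Metric.mem_nhds_iff.1 hN
  have c : ContinuousAt (fun w : C2 => ‖w.1‖ * ‖dir b w.2‖ ^ 2) (0, u) := by
    have := Kum.continuous_dir b
    fun_prop
  have h1 : ∀ ε > (0 : ℝ), ∀ᶠ w : C2 in 𝓝 (0, u), ‖w.1‖ * ‖dir b w.2‖ ^ 2 < ε := fun ε hε =>
    c.eventually_lt continuousAt_const (by simpa using hε)
  obtain ⟨σ, -, h2, h3, -⟩ := loc_inv (P := fun w : C2 => A.ν i w.1 (dir b w.2)) (v := (0, u))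
    ((h1 100 (by norm_num)).mono fun w hw => (A.std i).etale b w ⟨dir_ne _ _, hw⟩)
  simp only [(A.std i).zero] at h2 h3
  filter_upwards [h3, h2.eventually (h1 _ (sq_pos_of_pos hr))] with x a1 a2
  by_cases h0 : (σ x).1 = 0
  · exact Or.inl ⟨b, (σ x).2, by rw [← (A.std i).zero, ← h0, a1]⟩
  obtain ⟨s, hs⟩ := IsAlgClosed.exists_pow_nat_eq (σ x).1 two_pos
  have h4 : s ≠ 0 := fun e => h0 (by rw [← hs, e]; simp)
  refine Or.inr ⟨s • dir b (σ x).2, hrN (mem_ball_zero_iff.2 ?_), smul_ne_zero h4 (dir_ne _ _),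
    by rw [nu_smul A i h4, hs, a1]⟩
  rw [← hs, norm_pow, ← mul_pow, ← norm_smul] at a2
  exact lt_of_pow_lt_pow_left₀ 2 hr.le a2

end Vale.Agent.P290Z.Nk.Cv
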