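import Vale.Agent.P290.Defs
import Vale.Agent.P268.Hol

/-!
# P290Z, COVER: complex surfaces given by one chart at every point; two topological lemmas
-/

open scoped Manifold ContDiff Topology
open Set Filter Metric

noncomputable section

namespace Vale.Agent.P290Z.Nk.Cv

open Vale.Agent.P290

theorem analyticAt_ev {E F : Type} [NormedAddCommGroup E] [NormedSpace ℂ E]
    [FiniteDimensional ℂ E] [NormedAddCommGroup F] [NormedSpace ℂ F] [CompleteSpace F]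
    {f : E → F} {v : E} (h : ∀ᶠ u in 𝓝 v, DifferentiableAt ℂ f u) : AnalyticAt ℂ f v := by
  obtain ⟨W, h1, h2, h3⟩ := _root_.eventually_nhds_iff.1 h
  exact P268.analyticAt_of_differentiableOn h2 (fun u hu => (h1 u hu).differentiableWithinAt) h3

/-- an atlas with one chart `g z : U z → Z` for every point `z` -/
structure PA where
  Z : Type
  U : Z → Set C2
  g : Z → C2 → Z
  b : Z → C2
  open_U : ∀ z, IsOpen (U z)
  b_mem : ∀ z, b z ∈ U z
  g_b : ∀ z, g z (b z) = z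
  inj : ∀ z, InjOn (g z) (U z)
  trans : ∀ i j, ∀ v ∈ U i, ∀ w ∈ U j, g i v = g j w → ∃ φ : C2 → C2, φ v = w ∧
    ∀ᶠ v' in 𝓝 v, DifferentiableAt ℂ φ v' ∧ g j (φ v') = g i v'

namespace PA

variable (A : PA)

/-- the surface -/
def Sp : Type := A.Z

/-- the inverse charts -/
def gS (i : A.Sp) (v : C2) : A.Sp := A.g i v

instance : TopologicalSpace A.Sp where
  IsOpen W := ∀ i, IsOpen (A.U i ∩ A.gS i ⁻¹' W)
  isOpen_univ := fun i => by rw [preimage_univ, inter_univ]; exact A.open_U i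
  isOpen_inter := fun s t hs ht i => by
    have h : A.U i ∩ A.gS i ⁻¹' (s ∩ t) = (A.U i ∩ A.gS i ⁻¹' s) ∩ (A.U i ∩ A.gS i ⁻¹' t) := by
      ext v; simp only [mem_inter_iff, mem_preimage]; tauto
    rw [h]; exact (hs i).inter (ht i)
  isOpen_sUnion := fun S hS i => by
    have h : A.U i ∩ A.gS i ⁻¹' (⋃₀ S) = ⋃ s ∈ S, (A.U i ∩ A.gS i ⁻¹' s) := by
      ext v; simp only [mem_inter_iff, mem_preimage, mem_sUnion, mem_iUnion]
      constructor
      · rintro ⟨h1, t, ht, h2⟩; exact ⟨t, ht, h1, h2⟩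
      · rintro ⟨t, ht, h1, h2⟩; exact ⟨h1, t, ht, h2⟩
    rw [h]; exact isOpen_biUnion fun s hs => hS s hs i

theorem isOpen_iff' {W : Set A.Sp} : IsOpen W ↔ ∀ i, IsOpen (A.U i ∩ A.gS i ⁻¹' W) := Iff.rfl

theorem continuousAt_gS (i : A.Sp) {v : C2} (hv : v ∈ A.U i) : ContinuousAt (A.gS i) v := by
  intro s hs
  obtain ⟨t, hts, hto, htv⟩ := _root_.mem_nhds_iff.1 hs
  have h2 : A.U i ∩ A.gS i ⁻¹' t ∈ 𝓝 v := (A.isOpen_iff'.1 hto i).mem_nhds ⟨hv, htv⟩
  exact mem_map.2 (mem_of_superset h2 fun v' hv' => hts hv'.2)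

theorem isOpen_image (i : A.Sp) {W : Set C2} (hW : IsOpen W) (hWU : W ⊆ A.U i) :
    IsOpen (A.gS i '' W) := by
  rw [isOpen_iff']
  intro j
  rw [isOpen_iff_mem_nhds]
  rintro w ⟨hw, v, hv, hvw⟩
  obtain ⟨φ, hφw, hev⟩ := A.trans j i w hw v (hWU hv) hvw.symm
  have h1 : ∀ᶠ w' in 𝓝 w, φ w' ∈ W :=
    hev.self_of_nhds.1.continuousAt.eventually (hW.mem_nhds (by rw [hφw]; exact hv))
  filter_upwards [h1, hev, (A.open_U j).mem_nhds hw] with w' h1 h2 h3
  exact ⟨h3, φ w', h1, h2.2⟩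

theorem inv_gS (i : A.Sp) {v : C2} (hv : v ∈ A.U i) :
    Function.invFunOn (A.gS i) (A.U i) (A.gS i v) = v :=
  (A.inj i).leftInvOn_invFunOn hv

/-- the chart at a point -/
def chart (i : A.Sp) : OpenPartialHomeomorph A.Sp C2 where
  toFun := Function.invFunOn (A.gS i) (A.U i)
  invFun := A.gS i
  source := A.gS i '' A.U i
  target := A.U i
  map_source' := by
    rintro _ ⟨v, hv, rfl⟩
    exact Function.invFunOn_mem ⟨v, hv, rfl⟩
  map_target' := fun v hv => ⟨v, hv, rfl⟩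
  left_inv' := by
    rintro _ ⟨v, hv, rfl⟩
    exact Function.invFunOn_eq ⟨v, hv, rfl⟩
  right_inv' := fun v hv => A.inv_gS i hv
  open_source := A.isOpen_image i (A.open_U i) Subset.rfl
  open_target := A.open_U i
  continuousOn_toFun := by
    rintro _ ⟨v, hv, rfl⟩
    refine ContinuousAt.continuousWithinAt fun s hs => ?_
    rw [A.inv_gS i hv] at hs
    obtain ⟨t, hts, hto, htv⟩ := _root_.mem_nhds_iff.1 hs
    have h2 : A.gS i '' (t ∩ A.U i) ∈ 𝓝 (A.gS i v) :=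
      (A.isOpen_image i (hto.inter (A.open_U i)) inter_subset_right).mem_nhds ⟨v, ⟨htv, hv⟩, rfl⟩
    refine mem_map.2 (mem_of_superset h2 ?_)
    rintro _ ⟨v', ⟨hv't, hv'N⟩, rfl⟩
    rw [mem_preimage, A.inv_gS i hv'N]
    exact hts hv't
  continuousOn_invFun := fun v hv => (A.continuousAt_gS i hv).continuousWithinAt

instance : ChartedSpace C2 A.Sp where
  atlas := range A.chart
  chartAt := A.chart
  mem_chart_source z := ⟨A.b z, A.b_mem z, A.g_b z⟩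
  chart_mem_atlas _ := ⟨_, rfl⟩

theorem chart_gS (i : A.Sp) {v : C2} (hv : v ∈ A.U i) : A.chart i (A.gS i v) = v :=
  (A.chart i).right_inv hv

theorem chart_self (i : A.Sp) : A.chart i i = A.b i := by
  have h := A.chart_gS i (A.b_mem i)
  rwa [show A.gS i (A.b i) = i from A.g_b i] at h

/-- transition maps -/
theorem trans_chart (i j : A.Sp) {v : C2} (hv : v ∈ A.U i)
    (hv' : A.gS i v ∈ (A.chart j).source) :
    ∀ᶠ v' in 𝓝 v, DifferentiableAt ℂ (fun u => A.chart j (A.gS i u)) v' := by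
  obtain ⟨w, hw, hwv⟩ := hv'
  obtain ⟨φ, hφv, hev⟩ := A.trans i j v hv w hw hwv.symm
  have h1 : ∀ᶠ v' in 𝓝 v, φ v' ∈ A.U j :=
    hev.self_of_nhds.1.continuousAt.eventually ((A.open_U j).mem_nhds (by rw [hφv]; exact hw))
  have h2 : (fun u => A.chart j (A.gS i u)) =ᶠ[𝓝 v] φ := by
    filter_upwards [h1, hev] with v' h1 h2
    rw [show A.gS i v' = A.gS j (φ v') from h2.2.symm]
    exact A.chart_gS j h1
  filter_upwards [h2.eventuallyEq_nhds, hev] with v' h3 h4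
  exact h4.1.congr_of_eventuallyEq h3

instance : IsManifold 𝓘(ℂ, C2) ω A.Sp := by
  refine isManifold_of_contDiffOn _ _ _ ?_
  rintro _ _ ⟨p, rfl⟩ ⟨q, rfl⟩ v hv
  simp only [mfld_simps] at hv
  exact (analyticAt_ev (A.trans_chart p q hv.1 hv.2)).contDiffAt.contDiffWithinAt

/-- neighbourhoods are images of neighbourhoods -/
theorem ev_of (i : A.Sp) {v : C2} (hv : v ∈ A.U i) {P : A.Sp → Prop}
    (h : ∀ᶠ u in 𝓝 v, P (A.gS i u)) : ∀ᶠ z in 𝓝 (A.gS i v), P z := by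
  have h1 : A.gS i v ∈ (A.chart i).source := ⟨v, hv, rfl⟩
  have h2 := (A.chart i).continuousAt h1
  rw [ContinuousAt, A.chart_gS i hv] at h2
  filter_upwards [h2.eventually h, (A.chart i).open_source.mem_nhds h1] with z a1 a2
  rwa [show A.gS i (A.chart i z) = z from (A.chart i).left_inv a2] at a1

theorem cont_of {T : Type} [TopologicalSpace T] {f : A.Sp → T} (i : A.Sp) {v : C2}
    (hv : v ∈ A.U i) (h : ContinuousAt (fun u => f (A.gS i u)) v) :
    ContinuousAt f (A.gS i v) := fun _ hs => A.ev_of i hv (h hs)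

theorem cont_at {T : Type} [TopologicalSpace T] {f : A.Sp → T} (i : A.Sp)
    (h : ContinuousAt (fun u => f (A.gS i u)) (A.b i)) : ContinuousAt f i := by
  have h1 := A.cont_of i (A.b_mem i) h
  rwa [show A.gS i (A.b i) = i from A.g_b i] at h1

end PA

/-! ### compactness and connectedness of a double cover -/

/-- `Ov z y`: the point `z` lies over `y` -/
structure Dbl {Z Y : Type} [TopologicalSpace Z] [TopologicalSpace Y] (Ov : Z → Y → Prop)
    (j : Z → Z) (p : Z → Y) : Prop where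
  cont : Continuous j
  jj : ∀ z, j (j z) = z
  ov : ∀ z, Ov z (p z)
  ex : ∀ y, ∃ z, Ov z y
  fib : ∀ z z' y, Ov z y → Ov z' y → z = z' ∨ j z = z'
  opn : ∀ z y, Ov z y → ∀ N ∈ 𝓝 z, ∀ᶠ y' in 𝓝 y, ∃ z' ∈ N, Ov z' y'

namespace Dbl

variable {Z Y : Type} [TopologicalSpace Z] [TopologicalSpace Y] {Ov : Z → Y → Prop}
  {j : Z → Z} {p : Z → Y}

theorem compact [CompactSpace Y] (H : Dbl Ov j p) : CompactSpace Z := by
  refine ⟨isCompact_iff_ultrafilter_le_nhds.2 fun F _ => ?_⟩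
  obtain ⟨y, -, hy⟩ := isCompact_univ.ultrafilter_le_nhds (F.map p) (by simp)
  obtain ⟨z, hz⟩ := H.ex y
  by_contra hn
  have h1 : ∀ z, ∃ N ∈ 𝓝 z, N ∉ F := fun z => by
    by_contra h
    push Not at h
    exact hn ⟨z, mem_univ _, h⟩
  obtain ⟨N, hN, hF⟩ := h1 z
  obtain ⟨N', hN', hF'⟩ := h1 (j z)
  have h2 : ∀ᶠ x in (F : Filter Z), ∃ z' ∈ N ∩ j ⁻¹' N', Ov z' (p x) :=
    hy (H.opn z y hz _ (inter_mem hN (H.cont.continuousAt hN')))
  have h3 : N ∪ N' ∈ F := by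
    filter_upwards [h2] with x ⟨z', a1, a2⟩
    rcases H.fib z' x _ a2 (H.ov x) with rfl | rfl
    · exact Or.inl a1.1
    · exact Or.inr a1.2
  exact (Ultrafilter.union_mem_iff.1 h3).elim hF hF'

theorem clopen [ConnectedSpace Y] (H : Dbl Ov j p) {q : Z} (hq : j q = q) {W : Set Z}
    (hW : IsClopen W) (h : q ∈ W) : W = univ := by
  have h0 : IsClopen (W ∩ j ⁻¹' W) := hW.inter (hW.preimage H.cont)
  have op : ∀ V : Set Z, IsOpen V → IsOpen {y | ∃ z ∈ V, Ov z y} := fun V hV =>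
    isOpen_iff_mem_nhds.2 fun y ⟨z, a1, a2⟩ => H.opn z y a2 V (hV.mem_nhds a1)
  have inv : ∀ z z' y, Ov z y → Ov z' y → z ∈ W ∩ j ⁻¹' W → z' ∈ W ∩ j ⁻¹' W := by
    intro z z' y a1 a2 a3
    rcases H.fib z z' y a1 a2 with rfl | rfl
    · exact a3
    · exact ⟨a3.2, by rw [mem_preimage, H.jj]; exact a3.1⟩
  have h1 : {y | ∃ z ∈ W ∩ j ⁻¹' W, Ov z y}ᶜ = {y | ∃ z ∈ (W ∩ j ⁻¹' W)ᶜ, Ov z y} := by
    ext y
    refine ⟨fun a => ?_, fun ⟨z, a1, a2⟩ ⟨z', a3, a4⟩ => a1 (inv z' z y a4 a2 a3)⟩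
    obtain ⟨z, hz⟩ := H.ex y
    exact ⟨z, fun a1 => a ⟨z, a1, hz⟩, hz⟩
  have h2 : IsClopen {y | ∃ z ∈ W ∩ j ⁻¹' W, Ov z y} :=
    ⟨isOpen_compl_iff.1 (by rw [h1]; exact op _ h0.compl.isOpen), op _ h0.isOpen⟩
  have h3 := h2.eq_univ ⟨p q, q, ⟨h, by rw [mem_preimage, hq]; exact h⟩, H.ov q⟩
  refine eq_univ_of_forall fun z => ?_
  obtain ⟨z', a1, a2⟩ := h3.ge (mem_univ (p z))
  exact (inv z' z _ a2 (H.ov z) a1).1

theorem connected [ConnectedSpace Y] (H : Dbl Ov j p) {q : Z} (hq : j q = q) :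
    ConnectedSpace Z := by
  refine connectedSpace_iff_clopen.2 ⟨⟨q⟩, fun W hW => ?_⟩
  by_cases h : q ∈ W
  · exact Or.inr (H.clopen hq hW h)
  · exact Or.inl (compl_univ_iff.1 (H.clopen hq hW.compl h))

end Dbl

end Vale.Agent.P290Z.Nk.Cv
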