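import Vale.Agent.P290Z.Nk.Defs

/-!
# P290Z Nk, COVER: the double cover before the global properties and the two-form
-/

open scoped Manifold ContDiff Topology
open Set Filter Metric

noncomputable section

namespace Vale.Agent.P290Z.Nk

open Vale.Agent.P290

/-- `DCover` without separation, compactness, connectedness and the two-form -/
structure PreCov {Y : W.K3} {n : ℕ} {K : Nik Y n} (A : Nbhd K) where
  X : Type
  [top : TopologicalSpace X]
  [charts : ChartedSpace C2 X]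
  [manifold : IsManifold 𝓘(ℂ, C2) ω X]
  p : X → Y.X
  j : X → X
  q : Fin n → X
  w : X → EuclideanSpace ℂ K.ι
  atl : ∀ e ∈ atlas C2 X, ∀ i, q i ∈ e.source → e = chartAt C2 (q i)
  q_inj : Function.Injective q
  j_j : ∀ z, j (j z) = z
  j_fix : ∀ z, j z = z ↔ z ∈ range q
  p_j : ∀ z, z ∉ range q → p (j z) = p z
  fib : ∀ z z', z ∉ range q → z' ∉ range q → p z = p z' → z' = z ∨ z' = j z
  off : ∀ z, z ∉ range q → p z ∉ K.br
  surj : ∀ y, y ∉ K.br → ∃ z, z ∉ range q ∧ p z = y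
  p_cont : ∀ z, z ∉ range q → ContinuousAt p z
  chart_p : ∀ z, z ∉ range q → ∀ᶠ z' in 𝓝 z, chartAt C2 z z' = chartAt C2 (p z) (p z')
  target_q : ∀ i, (chartAt C2 (q i)).target = ball 0 10
  chart_q : ∀ i, chartAt C2 (q i) (q i) = 0
  p_q : ∀ i, ∀ v ∈ ball (0 : C2) 10, v ≠ 0 → p ((chartAt C2 (q i)).symm v) = A.ν i 1 v
  w_q : ∀ i, ∀ v ∈ ball (0 : C2) 10, v ≠ 0 → w ((chartAt C2 (q i)).symm v) = A.E i 1 v
  w_sq : ∀ z, z ∉ range q → ∀ k m, w z k * w z m = K.S (p z) k m
  w_j : ∀ z, z ∉ range q → w (j z) = -w z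
  w_cont : ∀ z, z ∉ range q → ContinuousAt w z

attribute [instance] PreCov.top PreCov.charts PreCov.manifold

end Vale.Agent.P290Z.Nk
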