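import Vale.Agent.P290Z.Nk.Cover.Loc

/-!
# P290Z, COVER: the double cover as a complex surface
-/

open scoped Manifold ContDiff Topology
open Set Filter Metric

noncomputable section

namespace Vale.Agent.P290Z.Nk.Cv

open Vale.Agent.P290 Vale.Agent.P267
open Vale.Agent.P290.All (Etale dir)

variable {Y : W.K3} {n : ℕ} {K : Nik Y n}

variable (K) in
/-- square roots of `S`, with one point for every curve -/
def Good (x : Y.X × EuclideanSpace ℂ K.ι) : Prop :=
  Sq K x.1 x.2 ∧ (x.2 = 0 → ∃ i, x.1 = (K.C i).g true 0)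

variable (K) in
/-- the points of the double cover -/
def ZZ : Type := {x // Good K x}

variable (K) in
/-- the fixed points -/
def qq (i : Fin n) : ZZ K :=
  ⟨((K.C i).g true 0, 0), sq_zero ⟨i, true, 0, rfl⟩, fun _ => ⟨i, rfl⟩⟩

theorem qq_inj : Function.Injective (qq K) := fun i j e =>
  K.disj i j _ ⟨true, 0, rfl⟩ ⟨true, 0, (congrArg (fun z : ZZ K => z.1.1) e).symm⟩

theorem eq_qq {z : ZZ K} (h : z.1.2 = 0) : ∃ i, qq K i = z := by
  obtain ⟨i, hi⟩ := z.2.2 h
  exact ⟨i, Subtype.ext (Prod.ext hi.symm h.symm)⟩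

/-- the data of a chart -/
structure Pat (A : Nbhd K) (z : ZZ K) where
  U : Set C2
  P : C2 → Y.X
  F : C2 → EuclideanSpace ℂ K.ι
  b : C2
  open_U : IsOpen U
  b_mem : b ∈ U
  pb : (P b, F b) = z.1
  reg : ∀ v ∈ U, Rg K P F v ∨ (v = b ∧ F v = 0)
  inj : ∀ v ∈ U, ∀ v' ∈ U, P v = P v' → F v = F v' → v = v'
  off : z.1.2 ≠ 0 → P = (chartAt C2 z.1.1).symm ∧ U ⊆ (chartAt C2 z.1.1).target ∧
    b = chartAt C2 z.1.1 z.1.1
  on : ∀ i, qq K i = z → U = ball 0 10 ∧ b = 0 ∧ ∀ v ≠ 0, P v = A.ν i 1 v ∧ F v = A.E i 1 v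

variable {A : Nbhd K}

theorem Pat.ev_reg {z : ZZ K} (T : Pat A z) {v : C2} (hv : v ∈ T.U) (h : T.F v ≠ 0) :
    ∀ᶠ u in 𝓝 v, u ∈ T.U ∧ Rg K T.P T.F u := by
  filter_upwards [T.open_U.mem_nhds hv,
    ((T.reg v hv).resolve_right fun a => h a.2).cont.eventually_ne h] with u a1 a2
  exact ⟨a1, (T.reg u a1).resolve_right fun a => a2 a.2⟩

theorem Pat.good {z : ZZ K} (T : Pat A z) {v : C2} (hv : v ∈ T.U) : Good K (T.P v, T.F v) := by
  rcases T.reg v hv with h | ⟨rfl, -⟩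
  · exact ⟨h.sq, fun e => absurd e h.ne⟩
  · rw [T.pb]; exact z.2

theorem Pat.eq_b {z : ZZ K} (T : Pat A z) {v : C2} (hv : v ∈ T.U) (h : T.F v = 0) : v = T.b :=
  ((T.reg v hv).resolve_left fun a => a.ne h).1

variable (A)

theorem exists_pat (z : ZZ K) : Nonempty (Pat A z) := by
  by_cases h0 : z.1.2 = 0
  · obtain ⟨i, rfl⟩ := eq_qq h0
    have hr : ∀ v ∈ ball (0 : C2) 10, v ≠ 0 → Rg K (Function.update (A.ν i 1) 0 ((K.C i).g true 0))
        (Function.update (A.E i 1) 0 0) v := fun v hv h => by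
      have h1 := rg_nu A i hv h
      refine ⟨STD.etale_congr h1.et ((eventually_ne_nhds h).mono fun u hu => ?_),
        h1.cont.congr ((eventually_ne_nhds h).mono fun u hu => ?_), ?_, ?_⟩
      · exact Function.update_of_ne hu _ _
      · exact (Function.update_of_ne hu _ _).symm
      · rw [Function.update_of_ne h, Function.update_of_ne h]; exact h1.sq
      · rw [Function.update_of_ne h]; exact h1.ne
    refine ⟨⟨ball 0 10, Function.update (A.ν i 1) 0 ((K.C i).g true 0),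
      Function.update (A.E i 1) 0 0, 0, isOpen_ball, mem_ball_self (by norm_num),
      by simp [qq], fun v hv => ?_, fun v hv v' hv' e1 e2 => ?_, fun h => absurd h0 h,
      fun i' e => ⟨rfl, rfl, fun v hv => ?_⟩⟩⟩
    · by_cases h : v = 0
      · exact Or.inr ⟨h, by simp [h]⟩
      · exact Or.inl (hr v hv h)
    · by_cases h : v = 0
      · by_contra h'
        exact (hr v' hv' fun e => h' (h.trans e.symm)).ne (by rw [← e2, h, Function.update_self])
      · by_cases h' : v' = 0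
        · exact absurd (by rw [e2, h', Function.update_self]) (hr v hv h).ne
        · simp only [Function.update_of_ne h, Function.update_of_ne h'] at e1 e2
          exact inj_nu A i hv h hv' h' e1 e2
    · rw [qq_inj e]
      exact ⟨Function.update_of_ne hv _ _, Function.update_of_ne hv _ _⟩
  · obtain ⟨s, h1, h2⟩ := z.2.1.sec h0
    set c := chartAt C2 z.1.1
    have hs : z.1.1 ∈ c.source := mem_chart_source _ _
    have h3 : ∀ᶠ v in 𝓝 (c z.1.1), v ∈ c.target ∧ ContinuousAt s (c.symm v) ∧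
        Sq K (c.symm v) (s (c.symm v)) ∧ s (c.symm v) ≠ 0 :=
      (c.open_target.eventually_mem (c.map_source hs)).and ((c.tendsto_symm hs).eventually h2)
    obtain ⟨U, u1, u2, u3⟩ := _root_.eventually_nhds_iff.1 h3
    refine ⟨⟨U, c.symm, fun v => s (c.symm v), c z.1.1, u2, u3, by rw [c.left_inv hs, h1],
      fun v hv => Or.inl ⟨etale_symm (u1 v hv).1, ContinuousAt.comp (f := c.symm) (u1 v hv).2.1
        (c.continuousAt_symm (u1 v hv).1), (u1 v hv).2.2.1, (u1 v hv).2.2.2⟩,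
      fun v hv v' hv' e _ => c.symm.injOn (u1 v hv).1 (u1 v' hv').1 e,
      fun _ => ⟨rfl, fun v hv => (u1 v hv).1, rfl⟩, fun i e => absurd (by rw [← e]; rfl) h0⟩⟩

/-- the chosen chart data -/
def pat (z : ZZ K) : Pat A z := Classical.choice (exists_pat A z)

open Classical in
/-- the point with the given data -/
def mk (z : ZZ K) (x : Y.X × EuclideanSpace ℂ K.ι) : ZZ K := if h : Good K x then ⟨x, h⟩ else z

theorem mk_val (z : ZZ K) {x : Y.X × EuclideanSpace ℂ K.ι} (h : Good K x) : (mk z x).1 = x :=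
  congrArg Subtype.val (show mk z x = ⟨x, h⟩ from dif_pos h)

theorem mk_b (z : ZZ K) : mk z ((pat A z).P (pat A z).b, (pat A z).F (pat A z).b) = z :=
  Subtype.ext (by rw [(pat A z).pb, mk_val z z.2])

/-- the atlas -/
def pa : PA where
  Z := ZZ K
  U z := (pat A z).U
  g z v := mk z ((pat A z).P v, (pat A z).F v)
  b z := (pat A z).b
  open_U z := (pat A z).open_U
  b_mem z := (pat A z).b_mem
  g_b := mk_b A
  inj z v hv v' hv' e := by
    have h := congrArg Subtype.val e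
    simp only [mk_val z ((pat A z).good hv), mk_val z ((pat A z).good hv'), Prod.mk.injEq] at h
    exact (pat A z).inj v hv v' hv' h.1 h.2
  trans i j v hv w hw e := by
    have h := congrArg Subtype.val e
    simp only [mk_val i ((pat A i).good hv), mk_val j ((pat A j).good hw), Prod.mk.injEq] at h
    by_cases h0 : (pat A i).F v = 0
    · have h1 := (pat A i).eq_b hv h0
      have h2 := (pat A j).eq_b hw (h.2.symm.trans h0)
      rw [h1, h2, mk_b, mk_b] at e
      subst e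
      exact ⟨id, h1.trans h2.symm, Eventually.of_forall fun _ => ⟨differentiableAt_id, rfl⟩⟩
    · have h1 := (pat A i).ev_reg hv h0
      obtain ⟨φ, h2, h3⟩ := rg_trans (h1.mono fun _ a => a.2)
        (((pat A j).ev_reg hw (h.2 ▸ h0)).mono fun _ a => a.2) h.1 h.2
      refine ⟨φ, h2, ?_⟩
      filter_upwards [h1, h3] with u a1 a2
      refine ⟨a2.1, Subtype.ext ?_⟩
      rw [a2.2.1, a2.2.2, mk_val _ ((pat A i).good a1.1), mk_val _ ((pat A i).good a1.1)]

/-- the double cover -/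
abbrev Zc : Type := (pa A).Sp

variable {A}

/-- the projection -/
def pZ (z : Zc A) : Y.X := (Subtype.val z).1

/-- the square root -/
def wZ (z : Zc A) : EuclideanSpace ℂ K.ι := (Subtype.val z).2

/-- the involution -/
def jZ (z : Zc A) : Zc A :=
  Subtype.mk (pZ z, -wZ z) ⟨z.2.1.neg, fun h => z.2.2 (neg_eq_zero.1 h)⟩

variable (A) in
/-- the fixed points -/
def qZ (i : Fin n) : Zc A := qq K i

theorem extZ {z z' : Zc A} (h1 : pZ z = pZ z') (h2 : wZ z = wZ z') : z = z' :=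
  Subtype.ext (Prod.ext h1 h2)

theorem sqZ (z : Zc A) : Sq K (pZ z) (wZ z) := z.2.1

theorem p_jZ (z : Zc A) : pZ (jZ z) = pZ z := rfl

theorem w_jZ (z : Zc A) : wZ (jZ z) = -wZ z := rfl

theorem w_qZ (i : Fin n) : wZ (qZ A i) = 0 := rfl

theorem j_jZ (z : Zc A) : jZ (jZ z) = z := extZ rfl (neg_neg _)

theorem w_zero {z : Zc A} : wZ z = 0 ↔ z ∈ range (qZ A) :=
  ⟨fun h => eq_qq h, fun ⟨_, e⟩ => e ▸ rfl⟩

theorem j_qZ (i : Fin n) : jZ (qZ A i) = qZ A i := extZ rfl neg_zero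

theorem fibZ {z z' : Zc A} (h : pZ z = pZ z') : z' = z ∨ z' = jZ z :=
  ((sqZ z).pm (h ▸ sqZ z')).imp (extZ h.symm) (extZ h.symm)

theorem p_gS (z : Zc A) {v : C2} (hv : v ∈ (pat A z).U) : pZ ((pa A).gS z v) = (pat A z).P v :=
  congrArg Prod.fst (mk_val z ((pat A z).good hv))

theorem w_gS (z : Zc A) {v : C2} (hv : v ∈ (pat A z).U) : wZ ((pa A).gS z v) = (pat A z).F v :=
  congrArg Prod.snd (mk_val z ((pat A z).good hv))

theorem P_b (z : Zc A) : (pat A z).P (pat A z).b = pZ z := congrArg Prod.fst (pat A z).pb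

theorem F_b (z : Zc A) : (pat A z).F (pat A z).b = wZ z := congrArg Prod.snd (pat A z).pb

theorem gS_b (z : Zc A) : (pa A).gS z (pat A z).b = z := mk_b A z

theorem ev_b {z : Zc A} (h : wZ z ≠ 0) :
    ∀ᶠ u in 𝓝 (pat A z).b, u ∈ (pat A z).U ∧ Rg K (pat A z).P (pat A z).F u :=
  (pat A z).ev_reg (pat A z).b_mem (by rwa [F_b])

theorem U_q (i : Fin n) : (pat A (qZ A i)).U = ball 0 10 := ((pat A _).on i rfl).1

theorem b_q (i : Fin n) : (pat A (qZ A i)).b = 0 := ((pat A _).on i rfl).2.1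

theorem gS_q (i : Fin n) : (pa A).gS (qZ A i) 0 = qZ A i := by
  have h := gS_b (qZ A i)
  rwa [b_q] at h

theorem p_q (i : Fin n) {v : C2} (hv : v ∈ ball (0 : C2) 10) (h : v ≠ 0) :
    pZ ((pa A).gS (qZ A i) v) = A.ν i 1 v :=
  (p_gS _ (by rwa [U_q])).trans (((pat A _).on i rfl).2.2 v h).1

theorem w_q (i : Fin n) {v : C2} (hv : v ∈ ball (0 : C2) 10) (h : v ≠ 0) :
    wZ ((pa A).gS (qZ A i) v) = A.E i 1 v :=
  (w_gS _ (by rwa [U_q])).trans (((pat A _).on i rfl).2.2 v h).2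

theorem w_q_ne (i : Fin n) {v : C2} (hv : v ∈ ball (0 : C2) 10) (h : v ≠ 0) :
    wZ ((pa A).gS (qZ A i) v) ≠ 0 := by
  rw [w_q i hv h]; exact (rg_nu A i hv h).ne

theorem j_q (i : Fin n) {v : C2} (hv : v ∈ ball (0 : C2) 10) :
    jZ ((pa A).gS (qZ A i) v) = (pa A).gS (qZ A i) (-v) := by
  by_cases h : v = 0
  · rw [h, neg_zero, gS_q, j_qZ]
  have h1 : -v ∈ ball (0 : C2) 10 := by simpa using hv
  refine extZ ?_ ?_
  · rw [p_jZ, p_q i hv h, p_q i h1 (neg_ne_zero.2 h), nu_neg]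
  · rw [w_jZ, w_q i hv h, w_q i h1 (neg_ne_zero.2 h), E_neg]

/-! ### continuity -/

theorem ball_mem : ball (0 : C2) 10 ∈ 𝓝 (0 : C2) := ball_mem_nhds _ (by norm_num)

theorem cont_q (i : Fin n) : ContinuousAt ((pa A).gS (qZ A i)) 0 :=
  (pa A).continuousAt_gS _ (show (0 : C2) ∈ (pat A (qZ A i)).U by
    rw [U_q]; exact mem_of_mem_nhds ball_mem)

theorem p_cont {z : Zc A} (h : wZ z ≠ 0) : ContinuousAt pZ z :=
  (pa A).cont_at z ((ev_b h).self_of_nhds.2.et.1.congr
    ((ev_b h).mono fun _ a => (p_gS z a.1).symm))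

theorem cont_at_q {T : Type} [TopologicalSpace T] {f : Zc A → T} (i : Fin n)
    (h : ContinuousAt (fun u => f ((pa A).gS (qZ A i) u)) 0) : ContinuousAt f (qZ A i) :=
  (pa A).cont_at _ (by rwa [show (pa A).b (qZ A i) = 0 from b_q i])

theorem w_cont : Continuous (wZ (A := A)) := by
  refine continuous_iff_continuousAt.2 fun z => ?_
  by_cases h : wZ z = 0
  · obtain ⟨i, rfl⟩ := w_zero.1 h
    refine cont_at_q i (continuousAt_iff_punctured_nhds.2 ?_)
    simp only [gS_q, w_qZ]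
    refine (tendsto_E A i).congr' ?_
    filter_upwards [self_mem_nhdsWithin, mem_nhdsWithin_of_mem_nhds ball_mem] with v a1 a2
    exact (w_q i a2 a1).symm
  · exact (pa A).cont_at z ((ev_b h).self_of_nhds.2.cont.congr
      ((ev_b h).mono fun _ a => (w_gS z a.1).symm))

theorem j_cont : Continuous (jZ (A := A)) := by
  refine continuous_iff_continuousAt.2 fun z => ?_
  by_cases h : wZ z = 0
  · obtain ⟨i, rfl⟩ := w_zero.1 h
    refine cont_at_q i ((ContinuousAt.comp (f := fun v : C2 => -v) (x := 0)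
      (by rw [neg_zero]; exact cont_q i) continuous_neg.continuousAt).congr ?_)
    filter_upwards [ball_mem] with v hv
    exact (j_q i hv).symm
  · have h' : wZ (jZ z) ≠ 0 := neg_ne_zero.2 h
    have h1 : ∀ᶠ u in 𝓝 (pat A z).b, Rg K (pat A z).P (fun u => -(pat A z).F u) u :=
      (ev_b h).mono fun u a => ⟨a.2.et, a.2.cont.neg, a.2.sq.neg, neg_ne_zero.2 a.2.ne⟩
    obtain ⟨φ, h2, h3⟩ := rg_trans h1 ((ev_b h').mono fun _ a => a.2)
      (by rw [P_b, P_b, p_jZ]) (by rw [F_b, F_b, w_jZ])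
    have h4 := h3.self_of_nhds.1.continuousAt
    refine (pa A).cont_at z ((ContinuousAt.comp (f := φ) ((pa A).continuousAt_gS (jZ z)
      (by rw [h2]; exact (pa A).b_mem _)) h4).congr ?_)
    rw [ContinuousAt, h2] at h4
    filter_upwards [h3, ev_b h, h4.eventually (ev_b h')] with u a1 a2 a3
    refine extZ ?_ ?_
    · rw [Function.comp_apply, p_gS _ a3.1, p_jZ, p_gS _ a2.1, a1.2.1]
    · rw [Function.comp_apply, w_gS _ a3.1, w_jZ, w_gS _ a2.1, a1.2.2]

theorem t2Z : T2Space (Zc A) := by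
  refine t2Space_iff_disjoint_nhds.2 fun z z' hne => ?_
  by_cases hw : wZ z = wZ z'
  swap
  · exact Tendsto.disjoint (w_cont.tendsto z) (disjoint_nhds_nhds.2 hw) (w_cont.tendsto z')
  by_cases h0 : wZ z = 0
  swap
  · exact Tendsto.disjoint (p_cont h0) (disjoint_nhds_nhds.2 fun e => hne (extZ e hw))
      (p_cont (hw ▸ h0))
  obtain ⟨i, rfl⟩ := w_zero.1 h0
  obtain ⟨k, rfl⟩ := w_zero.1 (hw ▸ h0)
  refine disjoint_of_disjoint_of_mem (Set.disjoint_left.2 ?_) (chart_source_mem_nhds C2 _)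
    (chart_source_mem_nhds C2 _)
  rintro _ ⟨v, hv, rfl⟩ ⟨v', hv', e⟩
  have a : v ∈ ball (0 : C2) 10 := by rwa [← U_q (A := A) i]
  have a' : v' ∈ ball (0 : C2) 10 := by rwa [← U_q (A := A) k]
  by_cases h : v = 0
  · by_cases h' : v' = 0
    · rw [h, h', gS_q, gS_q] at e
      exact hne e.symm
    · exact w_q_ne k a' h' (by rw [e, h, gS_q, w_qZ])
  · by_cases h' : v' = 0
    · exact w_q_ne i a h (by rw [← e, h', gS_q, w_qZ])
    · have h1 := congrArg pZ e
      rw [p_q k a' h', p_q i a h] at h1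
      exact hne (by rw [A.sep k i _ _ _ _ (sd_one a' h') (sd_one a h) h1])

/-- the point `z` lies over `y` -/
def Ov (z : Zc A) (y : Y.X) : Prop :=
  (wZ z ≠ 0 ∧ pZ z = y) ∨ ∃ i, qZ A i = z ∧ y ∈ (K.C i).supp

theorem surjZ {y : Y.X} (h : y ∉ K.br) : ∃ z : Zc A, wZ z ≠ 0 ∧ pZ z = y := by
  obtain ⟨s, hs⟩ := exists_sec h
  have h1 := hs.self_of_nhds.2
  exact ⟨Subtype.mk (y, s y) ⟨h1.1, fun e => absurd e h1.2⟩, h1.2, rfl⟩

theorem dbl : Dbl (Ov (A := A)) jZ pZ where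
  cont := j_cont
  jj := j_jZ
  ov z := by
    by_cases h : wZ z = 0
    · obtain ⟨i, rfl⟩ := w_zero.1 h
      exact Or.inr ⟨i, rfl, true, 0, rfl⟩
    · exact Or.inl ⟨h, rfl⟩
  ex y := by
    by_cases h : y ∈ K.br
    · obtain ⟨i, hi⟩ := h
      exact ⟨_, Or.inr ⟨i, rfl, hi⟩⟩
    · exact (surjZ h).imp fun _ => Or.inl
  fib := by
    rintro z z' y (⟨h, rfl⟩ | ⟨i, rfl, h⟩) (⟨h', e⟩ | ⟨k, rfl, h'⟩)
    · exact (fibZ e.symm).imp Eq.symm Eq.symm
    · exact absurd ((sqZ z).zero_iff.2 ⟨k, h'⟩) h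
    · exact absurd ((sqZ z').zero_iff.2 ⟨i, e ▸ h⟩) h'
    · exact Or.inl (by rw [K.disj i k y h h'])
  opn := by
    rintro z y (⟨h, rfl⟩ | ⟨i, rfl, h⟩) N hN
    · obtain ⟨σ, -, h2, h3, -⟩ := loc_inv ((ev_b h).mono fun _ a => a.2.et)
      have h4 := (pa A).continuousAt_gS z ((pa A).b_mem z)
      rw [ContinuousAt, show (pa A).gS z ((pa A).b z) = z from gS_b z] at h4
      rw [P_b] at h2 h3
      filter_upwards [h3, h2.eventually (ev_b h), (h4.comp h2).eventually hN] with y a1 a2 a3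
      exact ⟨_, a3, Or.inl ⟨by rw [Function.comp_apply, w_gS _ a2.1]; exact a2.2.ne,
        by rw [Function.comp_apply, p_gS _ a2.1, a1]⟩⟩
    · have h4 := cont_q (A := A) i
      rw [ContinuousAt, gS_q] at h4
      filter_upwards [near_curve A i h (inter_mem (h4 hN) ball_mem)] with y hy
      rcases hy with a | ⟨v, a1, a2, rfl⟩
      · exact ⟨_, mem_of_mem_nhds hN, Or.inr ⟨i, rfl, a⟩⟩
      · exact ⟨_, a1.1, Or.inl ⟨w_q_ne i a1.2 a2, p_q i a1.2 a2⟩⟩

end Vale.Agent.P290Z.Nk.Cv
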