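import Vale.Agent.P290Z.Nk.Cover.Pre
import Vale.Agent.P290Z.Nk.Basic

/-!
# P290Z Nk, COVER: the double cover is Hausdorff, compact and connected
-/

open scoped Manifold ContDiff Topology
open Set Filter Metric

noncomputable section

namespace Vale.Agent.P290Z.Nk

open Vale.Agent.P290
open Vale.Agent.P290.All (Etale dir)

namespace PreCov

variable {Y : W.K3} {n : ℕ} {K : Nik Y n} {A : Nbhd K} (P : PreCov A)

theorem sd_one {v : C2} {r : ℝ} (hv : v ∈ ball (0 : C2) r) (h0 : v ≠ 0) : SD (r ^ 2) 1 v :=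
  ⟨h0, by
    rw [norm_one, one_mul]
    exact pow_lt_pow_left₀ (mem_ball_zero_iff.1 hv) (norm_nonneg _) two_ne_zero⟩

theorem sd_zero {ε : ℝ} (hε : 0 < ε) (b : Bool) (u : ℂ) : SD ε 0 (dir b u) :=
  ⟨by cases b <;> simp [dir], by simpa using hε⟩

/-- the inverse chart at `q i` -/
def g (i : Fin n) : C2 → P.X := (chartAt C2 (P.q i)).symm

theorem g_zero (i : Fin n) : P.g i 0 = P.q i := by
  rw [g, ← P.chart_q i, (chartAt C2 (P.q i)).left_inv (mem_chart_source _ _)]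

theorem nhds_q (i : Fin n) : 𝓝 (P.q i) = map (P.g i) (𝓝 0) := by
  rw [g, ← P.chart_q i, (chartAt C2 (P.q i)).symm_map_nhds_eq (mem_chart_source _ _)]

theorem g_inj (i : Fin n) : InjOn (P.g i) (ball 0 10) :=
  P.target_q i ▸ (chartAt C2 (P.q i)).symm.injOn

theorem off_q (i : Fin n) (v : C2) (hv : v ∈ ball (0 : C2) 10) (h0 : v ≠ 0) :
    P.g i v ∉ range P.q := by
  rintro ⟨k, hk⟩
  have h1 := (chartAt C2 (P.q i)).map_target (P.target_q i ▸ hv)
  have h2 := P.atl _ (chart_mem_atlas C2 (P.q i)) k (hk ▸ h1)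
  refine h0 (P.g_inj i hv (mem_ball_self (by norm_num)) ?_)
  rw [← hk, g, h2]
  exact (P.g_zero k).symm

theorem j_off {z : P.X} (hz : z ∉ range P.q) : P.j z ∉ range P.q := fun h =>
  hz ((P.j_fix z).1 (((P.j_fix _).2 h).symm.trans (P.j_j z)))

theorem j_q (i : Fin n) (v : C2) (hv : v ∈ ball (0 : C2) 10) : P.j (P.g i v) = P.g i (-v) := by
  rcases eq_or_ne v 0 with rfl | h0
  · rw [neg_zero, P.g_zero]
    exact (P.j_fix _).2 ⟨i, rfl⟩
  have hv' : -v ∈ ball (0 : C2) 10 := by simpa using hv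
  refine ((P.fib _ _ (P.off_q i v hv h0) (P.off_q i _ hv' (neg_ne_zero.2 h0)) ?_).resolve_left
    fun h => h0 (neg_eq_self.1 (P.g_inj i hv' hv h))).symm
  have h1 := (A.std i).hom 1 (-1) v (by simp)
  rw [neg_one_sq, mul_one, neg_one_smul] at h1
  exact (P.p_q i v hv h0).trans (h1.trans (P.p_q i _ hv' (neg_ne_zero.2 h0)).symm)

theorem ev_off {z : P.X} (hz : z ∉ range P.q) : ∀ᶠ z' in 𝓝 z, z' ∉ range P.q :=
  have := ChartedSpace.t1Space C2 P.X
  (finite_range P.q).isClosed.isOpen_compl.mem_nhds hz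

theorem w_ne {z : P.X} (hz : z ∉ range P.q) : P.w z ≠ 0 := by
  intro h
  obtain ⟨U, e, f, h1, h2, -, h3⟩ := K.loc (P.p z)
  obtain ⟨h4, h5, -⟩ := h3 _ h1
  refine h2.ne _ h1 (PiLp.ext fun k => ?_)
  have h6 := (P.w_sq z hz k k).trans (h4 k k)
  rw [h, PiLp.zero_apply, zero_mul, zero_eq_mul, mul_self_eq_zero] at h6
  exact h6.resolve_left fun h7 => P.off z hz (h5.1 h7)

theorem w_j_ne {z : P.X} (hz : z ∉ range P.q) : P.w (P.j z) - P.w z ≠ 0 := by
  rw [P.w_j z hz, ← neg_add', ← two_smul ℂ, neg_ne_zero]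
  exact smul_ne_zero two_ne_zero (P.w_ne hz)

theorem map_p {z : P.X} (hz : z ∉ range P.q) : map P.p (𝓝 z) = 𝓝 (P.p z) := by
  have h1 : P.p =ᶠ[𝓝 z] (chartAt C2 (P.p z)).symm ∘ chartAt C2 z := by
    filter_upwards [P.chart_p z hz, (P.p_cont z hz).eventually (chart_source_mem_nhds C2 _)]
      with z' a1 a2
    rw [Function.comp, a1, (chartAt C2 (P.p z)).left_inv a2]
  rw [map_congr h1, ← map_map, (chartAt C2 z).map_nhds_eq (mem_chart_source _ _),
    (P.chart_p z hz).self_of_nhds, (chartAt C2 (P.p z)).symm_map_nhds_eq (mem_chart_source _ _)]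

theorem j_cont : Continuous P.j := by
  refine continuous_iff_continuousAt.2 fun z => ?_
  by_cases hz : z ∈ range P.q
  · obtain ⟨i, rfl⟩ := hz
    rw [ContinuousAt, (P.j_fix _).2 ⟨i, rfl⟩, P.nhds_q, tendsto_map'_iff]
    have h1 : Tendsto (fun v : C2 => -v) (𝓝 0) (𝓝 0) := by
      simpa using (continuous_neg (G := C2)).tendsto 0
    refine (tendsto_map.comp h1).congr' ?_
    filter_upwards [ball_mem_nhds (0 : C2) (by norm_num : (0 : ℝ) < 10)] with v hv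
    exact (P.j_q i v hv).symm
  have hj := P.j_off hz
  let s : Y.X → P.X := (chartAt C2 (P.j z)).symm ∘ chartAt C2 (P.p (P.j z))
  have h1 : ∀ᶠ z' in 𝓝 (P.j z), s (P.p z') = z' := by
    filter_upwards [P.chart_p _ hj, chart_source_mem_nhds C2 (P.j z)] with z' a1 a2
    exact (congrArg _ a1.symm).trans ((chartAt C2 (P.j z)).left_inv a2)
  have h2 : Tendsto s (𝓝 (P.p z)) (𝓝 (P.j z)) := by
    rw [← P.p_j z hz, ← P.map_p hj, tendsto_map'_iff]
    exact tendsto_id.congr' (h1.mono fun _ h => h.symm)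
  have h3 : ∀ᶠ y in 𝓝 (P.p z), P.p (s y) = y := by
    rw [← P.p_j z hz, ← P.map_p hj]
    exact h1.mono fun _ h => congrArg P.p h
  have h4 := h2.comp (P.p_cont z hz)
  have h5 := ((P.w_cont _ hj).tendsto.comp h4).sub (P.w_cont z hz)
  refine h4.congr' ?_
  filter_upwards [P.ev_off hz, h4.eventually (P.ev_off hj), (P.p_cont z hz).eventually h3,
    h5.eventually_ne (P.w_j_ne hz)] with z' a1 a2 a3 a4
  exact (P.fib z' _ a1 a2 a3.symm).resolve_left fun h => a4 (sub_eq_zero.2 (congrArg P.w h))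

/-- the point `z` lies over `y` -/
def R (y : Y.X) (z : P.X) : Prop :=
  (z ∉ range P.q ∧ P.p z = y) ∨ ∃ i, z = P.q i ∧ y ∈ (K.C i).supp

theorem R_fib {y : Y.X} {z z' : P.X} (h : P.R y z) (h' : P.R y z') : z' = z ∨ z' = P.j z := by
  rcases h with ⟨h1, rfl⟩ | ⟨i, rfl, h2⟩ <;> rcases h' with ⟨h3, h4⟩ | ⟨k, rfl, h4⟩
  · exact P.fib z z' h1 h3 h4.symm
  · exact absurd ⟨k, h4⟩ (P.off z h1)
  · exact absurd ⟨i, h4 ▸ h2⟩ (P.off z' h3)
  · exact Or.inl (congrArg P.q (K.disj k i y h4 h2))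

theorem R_ex (y : Y.X) : ∃ z, P.R y z := by
  by_cases h : y ∈ K.br
  · exact ⟨_, Or.inr ⟨_, rfl, h.choose_spec⟩⟩
  · exact (P.surj y h).imp fun _ => Or.inl

theorem R_ex' (z : P.X) : ∃ y, P.R y z := by
  by_cases h : z ∈ range P.q
  · exact ⟨_, Or.inr ⟨_, h.choose_spec.symm, true, 0, rfl⟩⟩
  · exact ⟨_, Or.inl ⟨h, rfl⟩⟩

theorem usc {y : Y.X} {W : Set P.X} (h : ∀ z, P.R y z → W ∈ 𝓝 z) :
    ∀ᶠ y' in 𝓝 y, ∀ z, P.R y' z → z ∈ W := by
  by_cases hy : y ∈ K.br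
  · obtain ⟨i, b, u, rfl⟩ := hy
    have h1 := h _ (Or.inr ⟨i, rfl, b, u, rfl⟩)
    rw [P.nhds_q] at h1
    obtain ⟨r, hr, h2⟩ := Metric.mem_nhds_iff.1
      (inter_mem h1 (ball_mem_nhds (0 : C2) (by norm_num : (0 : ℝ) < 10)))
    have h4 := lt_min hr (by norm_num : (0 : ℝ) < 10)
    have h3 : min r 10 ^ 2 ≤ 100 := by nlinarith [min_le_right r 10]
    filter_upwards [((A.std i).isOpen_image h3).mem_nhds
      ⟨_, _, sd_zero (pow_pos h4 2) b u, (A.std i).zero b u⟩]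
    rintro _ ⟨k, d, a1, rfl⟩ z (⟨a2, a3⟩ | ⟨m, rfl, b', u', a3⟩)
    · have a4 : k ≠ 0 := fun e => P.off z a2
        ⟨i, a3 ▸ ((A.std i).mem_supp ⟨a1.1, a1.2.trans_le h3⟩).2 e⟩
      obtain ⟨s, rfl⟩ := IsAlgClosed.exists_pow_nat_eq k two_pos
      have a5 : s ≠ 0 := fun e => a4 (by simp [e])
      have a6 : s • d ∈ ball (0 : C2) r := by
        rw [mem_ball_zero_iff, norm_smul]
        refine (lt_of_pow_lt_pow_left₀ 2 h4.le ?_).trans_le (min_le_left r 10)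
        rw [mul_pow, ← norm_pow]
        exact a1.2
      have a7 := smul_ne_zero a5 a1.1
      have a8 := (P.p_q i _ (h2 a6).2 a7).trans ((A.std i).hom 1 s d a5).symm
      rw [one_mul, ← a3] at a8
      rcases P.fib _ z (P.off_q i _ (h2 a6).2 a7) a2 a8 with e | e
      · exact e ▸ (h2 a6).1
      · rw [e, P.j_q i _ (h2 a6).2]
        exact (h2 (by simpa using a6)).1
    · obtain rfl := A.sep m i _ _ _ _ (sd_zero (by norm_num) b' u') ⟨a1.1, a1.2.trans_le h3⟩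
        (((A.std m).zero b' u').trans a3)
      exact mem_of_mem_nhds (h _ (Or.inr ⟨m, rfl, b, u, rfl⟩))
  · obtain ⟨z, hz, rfl⟩ := P.surj y hy
    have h1 := (P.ev_off hz).and (Eventually.and (h z (Or.inl ⟨hz, rfl⟩))
      (P.j_cont.continuousAt.eventually (h _ (Or.inl ⟨P.j_off hz, P.p_j z hz⟩))))
    refine mem_of_superset (P.map_p hz ▸ image_mem_map h1) ?_
    rintro _ ⟨z', a1, rfl⟩ z'' a2
    rcases P.R_fib (Or.inl ⟨a1.1, rfl⟩) a2 with rfl | rfl
    exacts [a1.2.1, a1.2.2]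

theorem compact : CompactSpace P.X := by
  choose ρ hρ using P.R_ex'
  refine ⟨isCompact_iff_ultrafilter_le_nhds'.2 fun F _ => ?_⟩
  obtain ⟨y, -, hy⟩ := (isCompact_univ (X := Y.X)).ultrafilter_le_nhds' (F.map ρ) univ_mem
  obtain ⟨z, hz⟩ := P.R_ex y
  refine (Ultrafilter.le_sup_iff.1 (show ↑F ≤ 𝓝 z ⊔ 𝓝 (P.j z) from fun W hW => ?_)).elim
    (fun h => ⟨_, mem_univ _, h⟩) fun h => ⟨_, mem_univ _, h⟩
  have h1 := hy (P.usc (W := W) fun z' h => by
    rcases P.R_fib hz h with rfl | rfl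
    exacts [hW.1, hW.2])
  exact mem_of_superset h1 fun z' h => h z' (hρ z')

theorem clopen (i : Fin n) {W : Set P.X} (hW : IsClopen W) (hi : P.q i ∈ W) : univ ⊆ W := by
  have h1 := hW.inter (hW.preimage P.j_cont)
  have h2 : ∀ {V : Set P.X}, IsOpen V → IsOpen {y | ∀ z, P.R y z → z ∈ V} := fun hV =>
    isOpen_iff_mem_nhds.2 fun y hy => P.usc fun z hz => hV.mem_nhds (hy z hz)
  have h3 := (isPreconnected_univ (α := Y.X)).subset_left_of_subset_union (h2 h1.isOpen)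
    (h2 h1.compl.isOpen) (disjoint_left.2 fun y a1 a2 => (P.R_ex y).elim fun z hz => a2 z hz (a1 z hz))
    (fun y _ => by
      obtain ⟨z, hz⟩ := P.R_ex y
      refine (em (z ∈ W ∩ P.j ⁻¹' W)).imp (fun a z' hz' => ?_) fun a z' hz' b => a ?_
      · rcases P.R_fib hz hz' with rfl | rfl
        exacts [a, ⟨a.2, by rw [mem_preimage, P.j_j]; exact a.1⟩]
      · rcases P.R_fib hz' hz with rfl | rfl
        exacts [b, ⟨b.2, by rw [mem_preimage, P.j_j]; exact b.1⟩])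
    ⟨(K.C i).g true 0, mem_univ _, fun z hz => by
      have a := (P.j_fix _).2 ⟨i, rfl⟩
      rw [(P.R_fib (Or.inr ⟨i, rfl, true, 0, rfl⟩) hz).elim id fun e => e.trans a]
      exact ⟨hi, by rw [mem_preimage, a]; exact hi⟩⟩
  exact fun z _ => (P.R_ex' z).elim fun y hy => (h3 (mem_univ y) z hy).1

theorem conn (hn : 0 < n) : ConnectedSpace P.X := by
  refine @ConnectedSpace.mk _ _ ⟨isPreconnected_iff_subset_of_disjoint.2 fun u v hu hv h1 h2 => ?_⟩
    ⟨P.q ⟨0, hn⟩⟩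
  have h3 : IsCompl u v := ⟨disjoint_iff_inter_eq_empty.2 (by simpa using h2),
    codisjoint_iff_le_sup.2 h1⟩
  refine (h1 (mem_univ (P.q ⟨0, hn⟩))).imp (P.clopen _ ⟨?_, hu⟩) (P.clopen _ ⟨?_, hv⟩)
  · exact h3.eq_compl ▸ hv.isClosed_compl
  · exact h3.symm.eq_compl ▸ hu.isClosed_compl

theorem t2 : T2Space P.X := by
  choose ρ hρ using P.R_ex'
  have h0 : ∀ z, z ∉ range P.q → ρ z = P.p z := fun z hz =>
    (hρ z).elim (fun h => h.2.symm) fun ⟨i, h, _⟩ => absurd ⟨i, h.symm⟩ hz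
  have h1 : ∀ z, ∃ F, IsCompact F ∧ (∀ y ∈ F, P.R y z) ∧ Tendsto ρ (𝓝 z) (𝓝ˢ F) := by
    intro z
    by_cases hz : z ∈ range P.q
    · obtain ⟨i, rfl⟩ := hz
      refine ⟨_, (K.C i).isCompact_supp, fun y hy => Or.inr ⟨i, rfl, hy⟩, ?_⟩
      rw [P.nhds_q, tendsto_map'_iff, (hasBasis_nhdsSet _).tendsto_right_iff]
      rintro O ⟨hO, hs⟩
      obtain ⟨ε, hε, h2⟩ := (A.std i).small (by norm_num) hO hs
      filter_upwards [ball_mem_nhds (0 : C2) (by norm_num : (0 : ℝ) < 10),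
        ball_mem_nhds (0 : C2) (Real.sqrt_pos.2 hε)] with v a1 a2
      rcases eq_or_ne v 0 with rfl | a3
      · rw [Function.comp, P.g_zero]
        rcases hρ (P.q i) with a4 | ⟨k, a4, a5⟩
        exacts [absurd ⟨i, rfl⟩ a4.1, hs (P.q_inj a4 ▸ a5)]
      · rw [Function.comp, h0 _ (P.off_q i v a1 a3)]
        exact (P.p_q i v a1 a3).symm ▸ h2 _ _ (Real.sq_sqrt hε.le ▸ sd_one a2 a3)
    · refine ⟨_, isCompact_singleton, fun y hy => Or.inl ⟨hz, hy.symm⟩, ?_⟩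
      rw [nhdsSet_singleton]
      exact (P.p_cont z hz).tendsto.congr' ((P.ev_off hz).mono fun z' h => (h0 z' h).symm)
  refine t2Space_iff_disjoint_nhds.2 fun z z' hne => ?_
  obtain ⟨F, a1, a2, a3⟩ := h1 z
  obtain ⟨F', b1, b2, b3⟩ := h1 z'
  by_cases hd : Disjoint F F'
  · exact a3.disjoint (SeparatedNhds.of_isCompact_isCompact a1 b1 hd).disjoint_nhdsSet b3
  obtain ⟨y, c1, c2⟩ := not_disjoint_iff.1 hd
  obtain rfl := (P.R_fib (a2 y c1) (b2 y c2)).resolve_left hne.symm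
  have hz : z ∉ range P.q := fun h => hne ((P.j_fix z).2 h).symm
  exact (P.w_cont z hz).tendsto.disjoint (disjoint_nhds_nhds.2 (sub_ne_zero.1 (P.w_j_ne hz)).symm)
    (P.w_cont _ (P.j_off hz))

end PreCov

end Vale.Agent.P290Z.Nk
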